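import Crest.Agent.N250.Bowl.Main

/-!
# Row 250, B1: the bowl in the variables `β`, `C` (helper70)

`s = ρ²`, `β = (1 + (1 + k (s / 2))² / s)^(-1/2)`, `C = β (1 + k) = β + 2 s β'`, `s (1 - β²) = C²`.
-/

set_option autoImplicit false

noncomputable section

namespace Crest.Agent.N250.Bowl

open Complex MeasureTheory Set Filter Topology
open scoped ComplexConjugate

variable {d t s : ℂ} {Ω : Set ℂ} {g k : ℂ → ℂ} {B : ℝ}

theorem Dm.T_wt2 (h : Dm d Ω) (hB : ∀ t ∈ Ω, ‖g t‖ ≤ B / ‖t‖ ^ 2) (ht : t ∈ Ω) : ‖T d g t‖ ≤ 2 * B / ‖t‖ ^ 2 := by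
  have i := integrableOn_exp_mul_Ioi (show -(19 / 20 : ℝ) < 0 by norm_num) 0
  have t0 := h.far t ht
  have B0 : 0 ≤ B / ‖t‖ ^ 2 := (norm_nonneg _).trans (hB t ht)
  have B1 : 0 ≤ B := by
    by_contra c
    exact absurd (div_neg_of_neg_of_pos (not_le.1 c) (by positivity)) (not_lt.2 B0)
  rw [T, norm_mul, norm_neg]
  refine (mul_le_mul h.nm ((norm_integral_le_of_norm_le (i.mul_const (B / ‖t‖ ^ 2))
    ((ae_restrict_mem measurableSet_Ioi).mono fun s hs => ?_))) (norm_nonneg _) (by norm_num)).trans ?_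
  · have s0 : 0 ≤ s := le_of_lt hs
    have m := h.inv t ht s s0
    have u := h.far _ m
    have a : ‖t‖ ≤ ‖t + s * d‖ * Real.exp (s / 40) := by
      have := norm_sub_le (t + s * d) (s * d)
      rw [add_sub_cancel_right, norm_mul, norm_real, Real.norm_of_nonneg s0] at this
      nlinarith [h.nm, Real.add_one_le_exp (s / 40)]
    rw [norm_mul, h.nexp, show -(19 / 20) * s = -s + (s / 40 + s / 40) by ring, Real.exp_add, Real.exp_add, mul_assoc]
    gcongr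
    refine (hB _ m).trans ?_
    rw [← mul_div_assoc, div_le_div_iff₀ (by positivity) (by positivity)]
    have := mul_le_mul_of_nonneg_left (pow_le_pow_left₀ (norm_nonneg _) a 2) B1
    nlinarith
  · rw [integral_mul_const, integral_exp_mul_Ioi (by norm_num), mul_div_assoc 2]
    norm_num; nlinarith

/-- `k = 1 / (2 t) + O(t⁻²)` -/
theorem Dm.asy (h : Dm d Ω) (hk : Sol Ω k) (ht : t ∈ Ω) : ‖k t - 1 / (2 * t)‖ ≤ 10 / ‖t‖ ^ 2 := by
  have n : ∀ u ∈ Ω, u ≠ 0 := fun u hu => norm_pos_iff.1 (by linarith [h.far u hu])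
  have b : ∀ u ∈ Ω, ‖F u (k u) - 1 / (2 * u) + 1 / (2 * u ^ 2)‖ ≤ 5 / ‖u‖ ^ 2 := fun u hu => by
    have f := h.far u hu
    have a := (hk u hu).2
    have a' := sm_le f a
    have q : ‖k u‖ ^ 2 ≤ 4 * (1 / ‖u‖ ^ 2) :=
      (pow_le_pow_left₀ (norm_nonneg _) a 2).trans_eq (by field_simp; norm_num)
    have p : 0 < 1 / ‖u‖ ^ 2 := by positivity
    have e1 : ‖k u ^ 2 / (1 + k u)‖ ≤ 41 / 10 * (1 / ‖u‖ ^ 2) := by
      rw [norm_div, norm_pow, div_le_iff₀ (by linarith [one_add a'])]; nlinarith [one_add a']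
    have e2 : ‖k u ^ 2 / (2 * u)‖ ≤ 1 / 10 * (1 / ‖u‖ ^ 2) := by
      rw [norm_div, norm_pow, norm_mul, Complex.norm_two, div_le_iff₀ (by linarith)]; nlinarith
    have e3 : ‖1 / (2 * u ^ 2)‖ = 1 / 2 * (1 / ‖u‖ ^ 2) := by simp; ring
    rw [show F u (k u) - 1 / (2 * u) + 1 / (2 * u ^ 2) = k u ^ 2 / (1 + k u) - k u ^ 2 / (2 * u) + 1 / (2 * u ^ 2) by
      rw [F]; ring, show 5 / ‖u‖ ^ 2 = 5 * (1 / ‖u‖ ^ 2) by ring]
    linarith [norm_add_le (k u ^ 2 / (1 + k u) - k u ^ 2 / (2 * u)) (1 / (2 * u ^ 2)),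
      norm_sub_le (k u ^ 2 / (1 + k u)) (k u ^ 2 / (2 * u))]
  have c : ContinuousOn (fun u => F u (k u) - 1 / (2 * u) + 1 / (2 * u ^ 2)) Ω :=
    ((h.F_dif hk.dif fun t ht => (hk t ht).2).1.continuousOn.sub (continuousOn_const.div (by fun_prop)
      fun u hu => mul_ne_zero two_ne_zero (n u hu))).add (continuousOn_const.div (by fun_prop)
      fun u hu => mul_ne_zero two_ne_zero (pow_ne_zero 2 (n u hu)))
  rw [h.rep (y := fun u => k u - 1 / (2 * u)) (B := 5) c (fun u hu => (b u hu).trans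
    (div_le_self (by norm_num) (by nlinarith [h.far u hu]))) (fun u hu => ⟨?_, ?_⟩) ht]
  · exact (h.T_wt2 b ht).trans_eq (by norm_num)
  · have u0 := n u hu
    refine ((hk u hu).1.fun_sub ((hasDerivAt_const u 1).fun_div ((hasDerivAt_id' u).const_mul 2)
      (mul_ne_zero two_ne_zero u0))).congr_deriv ?_
    rw [Φ_eq (sm_le (h.far u hu) (hk u hu).2)]; field_simp; ring
  · have : ‖1 / (2 * u)‖ ≤ 1 / 2 := by
      rw [norm_div, norm_mul, norm_one, Complex.norm_two]; gcongr; linarith [h.far u hu]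
    linarith [norm_sub_le (k u) (1 / (2 * u)), sm_le (h.far u hu) (hk u hu).2]

/-- `β = P / √(1 + P²)` -/
def be (k : ℂ → ℂ) (s : ℂ) : ℂ := ((1 + (1 + k (s / 2)) ^ 2 / s) ^ (2⁻¹ : ℂ))⁻¹

/-- `C = β ρ / P` -/
def Cc (k : ℂ → ℂ) (s : ℂ) : ℂ := be k s * (1 + k (s / 2))

/-- everything about `β` at one point -/
structure BC (b C : ℂ → ℂ) (s : ℂ) : Prop where
  far : 200 ≤ ‖s‖
  der : HasDerivAt b ((C s - b s) / (2 * s)) s
  eq : s * (1 - b s ^ 2) = C s ^ 2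
  b1 : ‖b s - 1‖ ≤ 2 / ‖s‖
  c1 : ‖C s - 1‖ ≤ 7 / ‖s‖
  b2 : ‖b s - (1 - 1 / (2 * s))‖ ≤ 16 / ‖s‖ ^ 2
  c2 : ‖C s - (1 + 1 / (2 * s))‖ ≤ 64 / ‖s‖ ^ 2

theorem Dm.bc (h : Dm d Ω) (hk : Sol Ω k) (hs : s / 2 ∈ Ω) : BC (be k) (Cc k) s := by
  have n2 : ‖s / 2‖ = ‖s‖ / 2 := by simp
  have f : 200 ≤ ‖s‖ := by linarith [h.far _ hs]
  have s0 : s ≠ 0 := norm_pos_iff.1 (by linarith)
  obtain ⟨dk, k1⟩ := hk _ hs
  have k0 := sm_le (h.far _ hs) k1
  have k2 := h.asy hk hs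
  obtain ⟨r, hr⟩ : ∃ r, r = 1 / ‖s‖ := ⟨_, rfl⟩
  have r0 : 0 < r := by rw [hr]; positivity
  have r1 : r ≤ 1 / 200 := by rw [hr]; gcongr
  have dv : ∀ c : ℝ, c / ‖s‖ = c * r := fun c => by rw [hr]; ring
  have dv2 : ∀ c : ℝ, c / ‖s‖ ^ 2 = c * r ^ 2 := fun c => by rw [hr]; field_simp
  have dn : ∀ z : ℂ, ‖z / s‖ = ‖z‖ * r := fun z => by rw [norm_div, dv]
  rw [n2, show 2 / (‖s‖ / 2) = 4 * r by rw [hr]; field_simp; norm_num] at k1
  rw [n2, show 10 / (‖s‖ / 2) ^ 2 = 40 * r ^ 2 by rw [hr]; field_simp; norm_num,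
    show 2 * (s / 2) = s by ring] at k2
  have h1 : ‖1 + k (s / 2)‖ ≤ 51 / 50 := (norm_add_le _ _).trans (by rw [norm_one]; linarith)
  have u1 : ‖(1 + k (s / 2)) ^ 2 / s‖ ≤ 21 / 20 * r := by
    rw [dn, norm_pow]; gcongr; nlinarith [norm_nonneg (1 + k (s / 2))]
  have sl : 1 + (1 + k (s / 2)) ^ 2 / s ∈ slitPlane := mem_slitPlane_of_norm_lt_one (by linarith)
  have w0 := slitPlane_ne_zero sl
  have w1 : 99 / 100 ≤ ‖1 + (1 + k (s / 2)) ^ 2 / s‖ := by
    have := norm_sub_norm_le (1 : ℂ) (-((1 + k (s / 2)) ^ 2 / s))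
    rw [norm_one, norm_neg, sub_neg_eq_add] at this; linarith
  have q : be k s ^ 2 * (1 + (1 + k (s / 2)) ^ 2 / s) = 1 := by
    rw [be, inv_pow, show (2⁻¹ : ℂ) = ((2 : ℕ) : ℂ)⁻¹ by norm_num, cpow_nat_inv_pow _ two_ne_zero, inv_mul_cancel₀ w0]
  have bq : ‖be k s ^ 2‖ ≤ 100 / 99 := by
    have := congrArg norm q
    rw [norm_mul, norm_one] at this
    nlinarith [norm_nonneg (be k s ^ 2)]
  have p : 1 ≤ ‖be k s + 1‖ := by
    refine le_trans ?_ (re_le_norm _)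
    rw [add_re, one_re, be, inv_re, cpow_inv_two_re]
    linarith [div_nonneg (Real.sqrt_nonneg ((‖1 + (1 + k (s / 2)) ^ 2 / s‖ + (1 + (1 + k (s / 2)) ^ 2 / s).re) / 2))
      (normSq_nonneg ((1 + (1 + k (s / 2)) ^ 2 / s) ^ (2⁻¹ : ℂ)))]
  have eq : s * (1 - be k s ^ 2) = Cc k s ^ 2 := by
    rw [Cc]; field_simp at q; linear_combination -q
  have b1 : ‖be k s - 1‖ ≤ 11 / 10 * r := by
    have e : (be k s - 1) * (be k s + 1) = -(be k s ^ 2 * ((1 + k (s / 2)) ^ 2 / s)) := by linear_combination q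
    have := congrArg norm e
    rw [norm_mul, norm_neg, norm_mul] at this
    nlinarith [norm_nonneg (be k s - 1), mul_le_mul bq u1 (norm_nonneg _) (by norm_num)]
  have c1 : ‖Cc k s - 1‖ ≤ 6 * r := by
    rw [show Cc k s - 1 = (be k s - 1) * (1 + k (s / 2)) + k (s / 2) by rw [Cc]; ring]
    refine (norm_add_le _ _).trans ?_
    rw [norm_mul]
    nlinarith [mul_le_mul b1 h1 (norm_nonneg _) (by positivity)]
  have b2 : ‖be k s - (1 - 1 / (2 * s))‖ ≤ 16 * r ^ 2 := by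
    have e : (be k s - (1 - 1 / (2 * s))) * (be k s + 1) =
        ((be k s - 1) / 2 - (Cc k s - 1) * ((Cc k s - 1) + 2)) / s := by
      field_simp; linear_combination -2 * eq
    have := congrArg norm e
    rw [norm_mul, dn] at this
    have a := norm_sub_le ((be k s - 1) / 2) ((Cc k s - 1) * ((Cc k s - 1) + 2))
    have a' := norm_add_le (Cc k s - 1) 2
    rw [norm_div, norm_mul, Complex.norm_two] at a
    rw [Complex.norm_two] at a'
    have a2 : ‖Cc k s - 1‖ * ‖Cc k s - 1 + 2‖ ≤ 6 * r * (21 / 10) :=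
      mul_le_mul c1 (by linarith) (norm_nonneg _) (by positivity)
    have a3 := mul_le_mul_of_nonneg_right (show ‖(be k s - 1) / 2 - (Cc k s - 1) * ((Cc k s - 1) + 2)‖ ≤ 16 * r by
      linarith) r0.le
    nlinarith [norm_nonneg (be k s - (1 - 1 / (2 * s)))]
  refine ⟨f, ?_, eq, by rw [dv]; linarith, by rw [dv]; linarith, by rwa [dv2], ?_⟩
  · have d0 : HasDerivAt (fun s => k (s / 2)) (Φ (s / 2) (k (s / 2)) * (1 / 2)) s :=
      dk.comp s ((hasDerivAt_id' s).div_const 2)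
    have d1 := (((((d0.const_add 1).fun_pow 2).fun_div (hasDerivAt_id' s) s0).const_add 1).cpow_const
      (c := 2⁻¹) sl).fun_inv (by rw [Ne, cpow_eq_zero_iff]; exact fun a => w0 a.1)
    refine d1.congr_deriv ?_
    have h0 := ne1 k0
    have r0 : (1 + (1 + k (s / 2)) ^ 2 / s) ^ (2⁻¹ : ℂ) ≠ 0 := by rw [Ne, cpow_eq_zero_iff]; exact fun a => w0 a.1
    have w0' : s + (1 + k (s / 2)) ^ 2 ≠ 0 := fun a => w0 (by field_simp; linear_combination a)
    rw [cpow_sub _ _ w0, cpow_one, Cc, be, Φ]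
    generalize (1 + (1 + k (s / 2)) ^ 2 / s) ^ (2⁻¹ : ℂ) = R at r0
    field_simp
    ring
  · rw [dv2, show Cc k s - (1 + 1 / (2 * s)) = be k s - (1 - 1 / (2 * s)) + (k (s / 2) - 1 / s) +
      (be k s - 1) * k (s / 2) by rw [Cc]; field_simp; ring]
    refine (norm_add₃_le).trans ?_
    rw [norm_mul]
    nlinarith [mul_le_mul b1 k1 (norm_nonneg _) (by positivity)]

theorem BC.cj {b C : ℂ → ℂ} (h : BC b C (conj s)) : BC (fun s => conj (b (conj s))) (fun s => conj (C (conj s))) s := by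
  have e : ∀ z w : ℂ, ‖conj z - w‖ = ‖z - conj w‖ := fun z w => by rw [← norm_conj, map_sub, conj_conj]
  refine ⟨by simpa using h.far, ?_, ?_, ?_, ?_, ?_, ?_⟩
  · simpa [Function.comp_def, map_ofNat] using h.der.conj_conj
  · simpa using congrArg conj h.eq
  · rw [e]; simpa using h.b1
  · rw [e]; simpa using h.c1
  · rw [e]; simpa [map_ofNat] using h.b2
  · rw [e]; simpa [map_ofNat] using h.c2

/-- the difference of two solutions solves `D' = (-1/2 + O(s⁻²)) D` -/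
theorem BC.sub {b C b' C' : ℂ → ℂ} (h : BC b C s) (h' : BC b' C' s) :
    HasDerivAt (fun s => (b s - b' s) * exp (s / 2))
      ((1 / 2 - 1 / (2 * s) - (b s + b' s) / (2 * (C s + C' s))) * ((b s - b' s) * exp (s / 2))) s ∧ C s + C' s ≠ 0 ∧
    ‖1 / 2 - 1 / (2 * s) - (b s + b' s) / (2 * (C s + C' s))‖ ≤ 50 / ‖s‖ ^ 2 := by
  have f := h.far
  have s0 : s ≠ 0 := norm_pos_iff.1 (by linarith)
  have c7 : 7 / ‖s‖ ≤ 7 / 200 := by gcongr
  have n : 19 / 10 ≤ ‖C s + C' s‖ := by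
    have := norm_sub_norm_le (2 : ℂ) (-((C s - 1) + (C' s - 1)))
    rw [Complex.norm_two, norm_neg, show 2 - -((C s - 1) + (C' s - 1)) = C s + C' s by ring] at this
    linarith [norm_add_le (C s - 1) (C' s - 1), h.c1, h'.c1]
  have c0 : C s + C' s ≠ 0 := norm_pos_iff.1 (by linarith)
  refine ⟨((h.der.fun_sub h'.der).fun_mul ((hasDerivAt_id' s).div_const 2).cexp).congr_deriv ?_, c0, ?_⟩
  · field_simp
    linear_combination h'.eq - h.eq
  · have p : 0 < 1 / ‖s‖ ^ 2 := by positivity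
    have one : ∀ {b C : ℂ → ℂ}, BC b C s → ‖C s * (1 - 1 / s) - b s‖ ≤ 90 * (1 / ‖s‖ ^ 2) := fun {b C} h => by
      rw [show C s * (1 - 1 / s) - b s = (C s - (1 + 1 / (2 * s))) * (1 - 1 / s) + -(b s - (1 - 1 / (2 * s))) +
        -(1 / (2 * s ^ 2)) by field_simp; ring]
      refine norm_add₃_le.trans ?_
      have a : ‖1 - 1 / s‖ ≤ 101 / 100 := (norm_sub_le _ _).trans (by
        have : 1 / ‖s‖ ≤ 1 / 200 := by gcongr
        rw [norm_div, norm_one]; linarith)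
      have := mul_le_mul h.c2 a (norm_nonneg _) (by positivity)
      have b2 := h.b2
      rw [norm_mul, norm_neg, norm_neg, show ‖1 / (2 * s ^ 2)‖ = 1 / 2 * (1 / ‖s‖ ^ 2) by simp; ring]
      rw [div_eq_mul_one_div 64] at this
      rw [div_eq_mul_one_div 16] at b2
      linarith
    rw [show 1 / 2 - 1 / (2 * s) - (b s + b' s) / (2 * (C s + C' s)) =
      ((C s * (1 - 1 / s) - b s) + (C' s * (1 - 1 / s) - b' s)) / (2 * (C s + C' s)) by field_simp; ring,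
      norm_div, norm_mul, Complex.norm_two, div_le_iff₀ (by linarith), div_eq_mul_one_div 50]
    nlinarith [norm_add_le (C s * (1 - 1 / s) - b s) (C' s * (1 - 1 / s) - b' s), one h, one h']

end Crest.Agent.N250.Bowl
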