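import Mathlib

/-!
# Row 250, B1: the asymptotic series of the bowl soliton diverges (helper70)
-/

set_option autoImplicit false

noncomputable section

namespace Crest.Agent.N250.Bowl

open Filter Topology Finset
open scoped ComplexOrder

/-- Taylor coefficients at `0` -/
def cf (f : ℂ → ℂ) (n : ℕ) : ℂ := iteratedDeriv n f 0 / n.factorial

variable {f g : ℂ → ℂ}

theorem cf_zero (f : ℂ → ℂ) : cf f 0 = f 0 := by simp [cf]

theorem cf_congr (h : f =ᶠ[𝓝 0] g) (n : ℕ) : cf f n = cf g n := by rw [cf, cf, h.iteratedDeriv_eq n]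

theorem cf_add (hf : AnalyticAt ℂ f 0) (hg : AnalyticAt ℂ g 0) (n : ℕ) :
    cf (fun z => f z + g z) n = cf f n + cf g n := by
  rw [cf, iteratedDeriv_fun_add hf.contDiffAt hg.contDiffAt, add_div]; rfl

theorem cf_smul (c : ℂ) (f : ℂ → ℂ) (n : ℕ) : cf (fun z => c * f z) n = c * cf f n := by
  rw [cf, iteratedDeriv_const_mul_field, mul_div_assoc]; rfl

theorem cf_mul (hf : AnalyticAt ℂ f 0) (hg : AnalyticAt ℂ g 0) (n : ℕ) :
    cf (fun z => f z * g z) n = ∑ i ∈ range (n + 1), cf f i * cf g (n - i) := by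
  rw [cf, iteratedDeriv_fun_mul hf.contDiffAt hg.contDiffAt, sum_div]
  refine sum_congr rfl fun i hi => ?_
  have h := Nat.choose_mul_factorial_mul_factorial (Nat.lt_succ_iff.1 (mem_range.1 hi))
  have h1 : ((i.factorial : ℕ) : ℂ) ≠ 0 := Nat.cast_ne_zero.2 i.factorial_ne_zero
  have h2 : (((n - i).factorial : ℕ) : ℂ) ≠ 0 := Nat.cast_ne_zero.2 (n - i).factorial_ne_zero
  have h3 : ((n.choose i : ℕ) : ℂ) ≠ 0 := Nat.cast_ne_zero.2 (Nat.choose_pos (Nat.lt_succ_iff.1 (mem_range.1 hi))).ne'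
  rw [← h, cf, cf]; push_cast; field_simp

theorem cf_X (hf : AnalyticAt ℂ f 0) (n : ℕ) : cf (fun z => z * f z) (n + 1) = cf f n := by
  rw [cf_mul (f := fun z => z) analyticAt_id hf, sum_eq_single 1]
  · simp [cf, iteratedDeriv_fun_id_zero]
  · intro i _ hi; simp [cf, iteratedDeriv_fun_id_zero, hi]
  · simp

theorem cf_deriv (f : ℂ → ℂ) (n : ℕ) : cf (deriv f) n = (n + 1) * cf f (n + 1) := by
  have h1 : ((n.factorial : ℕ) : ℂ) ≠ 0 := Nat.cast_ne_zero.2 n.factorial_ne_zero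
  have h2 : (n : ℂ) + 1 ≠ 0 := by exact_mod_cast n.succ_ne_zero
  rw [cf, cf, iteratedDeriv_succ', Nat.factorial_succ]; push_cast; field_simp

theorem cf_bd (hf : AnalyticAt ℂ f 0) : ∃ r C : ℝ, 0 < r ∧ ∀ n, ‖cf f n‖ * r ^ n ≤ C := by
  obtain ⟨R, hR⟩ := hf.hasFPowerSeriesAt
  obtain ⟨r, h0, h1⟩ := ENNReal.lt_iff_exists_nnreal_btwn.1 (hR.r_pos.trans_le hR.r_le)
  obtain ⟨C, -, hC⟩ := FormalMultilinearSeries.norm_mul_pow_le_of_lt_radius _ h1
  exact ⟨r, C, by exact_mod_cast h0, fun n => by simpa [cf, FormalMultilinearSeries.ofScalars_norm] using hC n⟩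

/-- the recursion with positive coefficients -/
theorem no_e {e : ℂ → ℂ} (he : AnalyticAt ℂ e 0) (h0 : e 0 = 0)
    (h : ∀ᶠ τ in 𝓝 0, 2 * e τ = e τ * e τ +
      τ * ((1 + -1 * e τ + 2 * (τ * deriv e τ)) * (1 + -1 * e τ + 2 * (τ * deriv e τ)))) : False := by
  set C : ℂ → ℂ := fun τ => 1 + -1 * e τ + 2 * (τ * deriv e τ) with hC
  have a1 : AnalyticAt ℂ (fun τ => -1 * e τ) 0 := analyticAt_const.fun_mul he
  have a2 : AnalyticAt ℂ (fun τ => 2 * (τ * deriv e τ)) 0 := analyticAt_const.fun_mul (analyticAt_id.fun_mul he.deriv)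
  have aC : AnalyticAt ℂ C 0 := (analyticAt_const.fun_add a1).fun_add a2
  have e0 : cf e 0 = 0 := by rw [cf_zero, h0]
  have C0 : cf C 0 = 1 := by simp [cf_zero, hC, h0]
  have C1 : ∀ n, cf C (n + 1) = ((2 * n + 1 : ℕ) : ℂ) * cf e (n + 1) := fun n => by
    rw [hC, cf_add (analyticAt_const.fun_add a1) a2, cf_add analyticAt_const a1, cf_smul, cf_smul, cf_X he.deriv,
      cf_deriv]
    simp [cf, iteratedDeriv_const]; ring
  have rc : ∀ n, 2 * cf e (n + 1) = ∑ i ∈ range n, cf e (i + 1) * cf e (n - i) +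
      ∑ i ∈ range (n + 1), cf C i * cf C (n - i) := fun n => by
    have := cf_congr (g := fun τ => e τ * e τ + τ * (C τ * C τ)) h (n + 1)
    rw [cf_smul, cf_add (g := fun τ => τ * (C τ * C τ)) (he.fun_mul he) (analyticAt_id.fun_mul (aC.fun_mul aC)), cf_X (aC.fun_mul aC), cf_mul he he, cf_mul aC aC,
      sum_range_succ, sum_range_succ', e0, Nat.sub_self, e0] at this
    simpa using this
  have pos : ∀ n, 0 ≤ cf e n := fun n => by
    induction n using Nat.strong_induction_on with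
    | _ n ih =>
      rcases n with _ | n
      · exact e0.ge
      have pc : ∀ i ≤ n, 0 ≤ cf C i := fun i hi => by
        rcases i with _ | i
        · rw [C0]; exact zero_le_one
        · rw [C1]; exact mul_nonneg (Nat.cast_nonneg _) (ih _ (by omega))
      have : 0 ≤ 2 * cf e (n + 1) := by
        rw [rc]
        exact add_nonneg (sum_nonneg fun i hi => mul_nonneg (ih _ (by simpa using hi)) (ih _ (by omega)))
          (sum_nonneg fun i hi => mul_nonneg (pc _ (Nat.lt_succ_iff.1 (mem_range.1 hi))) (pc _ (by omega)))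
      simpa [Complex.le_def, eq_comm (a := (0 : ℝ))] using this
  have pc : ∀ i, 0 ≤ cf C i := fun i => by
    rcases i with _ | i
    · rw [C0]; exact zero_le_one
    · rw [C1]; exact mul_nonneg (Nat.cast_nonneg _) (pos _)
  have gr : ∀ n : ℕ, (2 * n + 1 : ℝ) * (cf e (n + 1)).re ≤ 2 * (cf e (n + 2)).re := fun n => by
    have : cf C 0 * cf C (n + 1 - 0) ≤ 2 * cf e (n + 2) := by
      rw [rc]
      exact le_add_of_nonneg_of_le (sum_nonneg fun i _ => mul_nonneg (pos _) (pos _))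
        (single_le_sum (f := fun i => cf C i * cf C (n + 1 - i)) (fun i _ => mul_nonneg (pc _) (pc _)) (by simp))
    rw [C0, one_mul, Nat.sub_zero, C1] at this
    simpa using (Complex.le_def.1 this).1
  have e1 : (cf e 1).re = 1 / 2 := by
    have := congrArg Complex.re (rc 0)
    simp [C0] at this; linarith
  have p1 : ∀ n, 0 < (cf e (n + 1)).re := fun n => by
    induction n with
    | zero => rw [e1]; norm_num
    | succ n ih => nlinarith [gr n, (n.cast_nonneg : (0 : ℝ) ≤ n)]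
  obtain ⟨r, B, r0, hB⟩ := cf_bd he
  obtain ⟨N, hN⟩ := exists_nat_ge (2 / r)
  rw [div_le_iff₀ r0] at hN
  have up : ∀ j, 2 ^ j * ((cf e (N + 1)).re * r ^ (N + 1)) ≤ (cf e (N + j + 1)).re * r ^ (N + j + 1) := fun j => by
    induction j with
    | zero => simp
    | succ j ih =>
      have a := gr (N + j)
      have b := p1 (N + j)
      have c : 4 ≤ (2 * ((N + j : ℕ) : ℝ) + 1) * r := by push_cast; nlinarith [(j.cast_nonneg : (0 : ℝ) ≤ j)]
      have d : 2 * (cf e (N + j + 1)).re ≤ (cf e (N + j + 2)).re * r := by nlinarith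
      have q := mul_le_mul_of_nonneg_right d (pow_pos r0 (N + j + 1)).le
      rw [pow_succ 2, show N + (j + 1) + 1 = N + j + 2 by ring, pow_succ' r (N + j + 1)]
      nlinarith
  have y0 : 0 < (cf e (N + 1)).re * r ^ (N + 1) := mul_pos (p1 N) (pow_pos r0 _)
  obtain ⟨j, hj⟩ := pow_unbounded_of_one_lt (B / ((cf e (N + 1)).re * r ^ (N + 1))) (one_lt_two (α := ℝ))
  rw [div_lt_iff₀ y0] at hj
  linarith [up j, hB (N + j + 1), mul_le_mul_of_nonneg_right (Complex.re_le_norm (cf e (N + j + 1)))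
    (pow_pos r0 (N + j + 1)).le]

/-- no solution of the bowl equation is analytic at infinity (`τ = ρ⁻²`, `h = ρ / P`) -/
theorem no_h {h : ℂ → ℂ} (ha : AnalyticAt ℂ h 0)
    (he : ∀ᶠ τ in 𝓝 0, 2 * τ ^ 2 * h τ * deriv h τ = h τ - 1 - τ * h τ ^ 2 * (2 - h τ)) : False := by
  set S : ℂ → ℂ := fun τ => 1 + τ * h τ ^ 2 with hS
  have aS : AnalyticAt ℂ S 0 := analyticAt_const.fun_add (analyticAt_id.fun_mul (ha.pow 2))
  have S0 : S 0 = 1 := by simp [hS]
  have sl : S 0 ∈ Complex.slitPlane := by rw [S0]; exact Complex.one_mem_slitPlane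
  set Y : ℂ → ℂ := fun τ => Complex.exp (-(1 / 2) * Complex.log (S τ)) with hY
  have aY : AnalyticAt ℂ Y 0 := (analyticAt_const.fun_mul (aS.clog sl)).cexp
  refine no_e (e := fun τ => 1 - Y τ) (analyticAt_const.sub aY) (by simp [hY, S0]) ?_
  filter_upwards [he, ha.eventually_analyticAt, aS.continuousAt.eventually_mem (Complex.isOpen_slitPlane.mem_nhds sl)]
    with τ e a s
  have s0 := Complex.slitPlane_ne_zero s
  have d1 : HasDerivAt S (h τ ^ 2 + τ * (2 * h τ * deriv h τ)) τ := by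
    simpa [hS] using ((hasDerivAt_id τ).fun_mul (a.differentiableAt.hasDerivAt.fun_pow 2)).const_add 1
  have d2 : HasDerivAt (fun τ => 1 - Y τ)
      (-(Y τ * (-(1 / 2) * ((h τ ^ 2 + τ * (2 * h τ * deriv h τ)) / S τ)))) τ :=
    (((d1.clog s).const_mul _).cexp).const_sub 1
  have y2 : Y τ * Y τ * S τ = 1 := by
    have := Complex.exp_log s0
    simp only [hY]
    generalize Complex.log (S τ) = L at this
    rw [← this, ← Complex.exp_add, ← Complex.exp_add, show -(1 / 2) * L + -(1 / 2) * L + L = 0 by ring,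
      Complex.exp_zero]
  rw [d2.deriv]
  have c : 1 + -1 * (1 - Y τ) + 2 * (τ * -(Y τ * (-(1 / 2) * ((h τ ^ 2 + τ * (2 * h τ * deriv h τ)) / S τ)))) =
      Y τ * h τ := by
    field_simp
    simp only [hS]
    linear_combination Y τ * e
  rw [c]
  simp only [hS] at y2
  linear_combination -y2

end Crest.Agent.N250.Bowl
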