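import Crest.Agent.N250.Bowl.Div
import Crest.Agent.N142.G.Hol

/-!
# Row 250, B1: the sectorial solution of the bowl equation and its Stokes jump (helper70)

`t = ρ² / 2`, `1 + k = ρ / P`, `P` the slope of the bowl: `k' = -k / (1 + k) + (1 - k²) / (2 t)`.
-/

set_option autoImplicit false

noncomputable section

namespace Crest.Agent.N250.Bowl

open Complex MeasureTheory Set Filter Topology

/-- the nonlinear part -/
def F (t k : ℂ) : ℂ := k ^ 2 / (1 + k) + (1 - k ^ 2) / (2 * t)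

/-- the bowl equation -/
def Φ (t k : ℂ) : ℂ := -k / (1 + k) + (1 - k ^ 2) / (2 * t)

/-- the solution of `y' = -y + g` that is bounded along the rays of direction `d` -/
def T (d : ℂ) (g : ℂ → ℂ) (t : ℂ) : ℂ := -d * ∫ s in Ioi (0 : ℝ), exp (s * d) * g (t + s * d)

/-- a domain invariant under the direction `d` -/
structure Dm (d : ℂ) (Ω : Set ℂ) : Prop where
  re : d.re = -1
  nm : ‖d‖ ≤ 3 / 2
  op : IsOpen Ω
  far : ∀ t ∈ Ω, 100 ≤ ‖t‖
  inv : ∀ t ∈ Ω, ∀ s : ℝ, 0 ≤ s → t + s * d ∈ Ω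

variable {d t k l : ℂ} {Ω : Set ℂ} {g : ℂ → ℂ} {B : ℝ}

theorem one_add (hk : ‖k‖ ≤ 1 / 50) : 49 / 50 ≤ ‖1 + k‖ := by
  have := norm_sub_norm_le (1 : ℂ) (-k)
  rw [norm_one, norm_neg, sub_neg_eq_add] at this; linarith

theorem ne1 (hk : ‖k‖ ≤ 1 / 50) : 1 + k ≠ 0 := norm_pos_iff.1 (by linarith [one_add hk])

theorem Φ_eq (hk : ‖k‖ ≤ 1 / 50) : Φ t k = -k + F t k := by
  have := ne1 hk
  rw [Φ, F, ← add_assoc]; congr 1; field_simp; ring

theorem sm_le (ht : 100 ≤ ‖t‖) (hk : ‖k‖ ≤ 2 / ‖t‖) : ‖k‖ ≤ 1 / 50 :=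
  hk.trans (by rw [div_le_iff₀ (by linarith)]; linarith)

theorem F_le (ht : 100 ≤ ‖t‖) (hk : ‖k‖ ≤ 2 / ‖t‖) : ‖F t k‖ ≤ 1 / ‖t‖ := by
  have h := sm_le ht hk
  have n0 := norm_nonneg k
  have a : ‖k ^ 2 / (1 + k)‖ ≤ 1 / 4 * (1 / ‖t‖) := by
    rw [norm_div, norm_pow, div_le_iff₀ (by linarith [one_add h])]
    have : 0 < 1 / ‖t‖ := by positivity
    rw [show 2 / ‖t‖ = 2 * (1 / ‖t‖) by ring] at hk
    nlinarith [one_add h]
  have b : ‖(1 - k ^ 2) / (2 * t)‖ ≤ 3 / 4 * (1 / ‖t‖) := by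
    have := norm_sub_le 1 (k ^ 2)
    rw [norm_one, norm_pow] at this
    rw [norm_div, norm_mul, Complex.norm_two, div_le_iff₀ (by linarith)]
    rw [show 3 / 4 * (1 / ‖t‖) * (2 * ‖t‖) = 3 / 2 by field_simp; norm_num]
    nlinarith
  exact (norm_add_le _ _).trans (by linarith)

theorem F_lip (ht : 100 ≤ ‖t‖) (hk : ‖k‖ ≤ 1 / 50) (hl : ‖l‖ ≤ 1 / 50) : ‖F t k - F t l‖ ≤ 1 / 10 * ‖k - l‖ := by
  have t0 : t ≠ 0 := norm_pos_iff.1 (by linarith)
  have e : F t k - F t l = ((k + l + k * l) / ((1 + k) * (1 + l)) - (k + l) / (2 * t)) * (k - l) := by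
    have := ne1 hk
    have := ne1 hl
    rw [F, F]; field_simp; ring
  have s := norm_add_le k l
  have a : ‖(k + l + k * l) / ((1 + k) * (1 + l))‖ ≤ 1 / 20 := by
    have := norm_add_le (k + l) (k * l)
    rw [norm_mul] at this
    rw [norm_div, norm_mul, div_le_iff₀ (by nlinarith [one_add hk, one_add hl])]
    nlinarith [one_add hk, one_add hl, norm_nonneg k, norm_nonneg l]
  have b : ‖(k + l) / (2 * t)‖ ≤ 1 / 20 := by
    rw [norm_div, norm_mul, Complex.norm_two, div_le_iff₀ (by linarith)]; linarith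
  rw [e, norm_mul]
  exact mul_le_mul_of_nonneg_right ((norm_sub_le _ _).trans (by linarith)) (norm_nonneg _)

theorem ie : IntegrableOn (fun s : ℝ => Real.exp (-s)) (Ioi 0) := integrableOn_exp_neg_Ioi 0

namespace Dm

variable (h : Dm d Ω)
include h

theorem nexp (s : ℝ) : ‖exp (s * d)‖ = Real.exp (-s) := by rw [norm_exp]; simp [h.re]

theorem cont (hg : ContinuousOn g Ω) (ht : t ∈ Ω) :
    ContinuousOn (fun s : ℝ => exp (s * d) * g (t + s * d)) (Ici 0) :=
  ContinuousOn.mul (by fun_prop) (hg.comp (by fun_prop) fun s hs => h.inv t ht s hs)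

theorem int (hg : ContinuousOn g Ω) (hB : ∀ t ∈ Ω, ‖g t‖ ≤ B) (ht : t ∈ Ω) :
    IntegrableOn (fun s : ℝ => exp (s * d) * g (t + s * d)) (Ioi 0) :=
  (ie.mul_const B).mono' (((h.cont hg ht).mono Ioi_subset_Ici_self).aestronglyMeasurable measurableSet_Ioi)
    ((ae_restrict_mem measurableSet_Ioi).mono fun s hs => by
      rw [norm_mul, h.nexp]; gcongr; exact hB _ (h.inv t ht s (le_of_lt hs)))

theorem T_le (hB : ∀ t ∈ Ω, ‖g t‖ ≤ B) (ht : t ∈ Ω) : ‖T d g t‖ ≤ 3 / 2 * B := by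
  rw [T, norm_mul, norm_neg]
  refine mul_le_mul h.nm ((norm_integral_le_of_norm_le (ie.mul_const B)
    ((ae_restrict_mem measurableSet_Ioi).mono fun s hs => ?_)).trans_eq ?_) (norm_nonneg _) (by norm_num)
  · rw [norm_mul, h.nexp]; gcongr; exact hB _ (h.inv t ht s (le_of_lt hs))
  · rw [integral_mul_const, integral_exp_neg_Ioi_zero, one_mul]

theorem T_wt (hB : ∀ t ∈ Ω, ‖g t‖ ≤ 1 / ‖t‖) (ht : t ∈ Ω) : ‖T d g t‖ ≤ 2 / ‖t‖ := by
  have i := integrableOn_exp_mul_Ioi (show -(39 / 40 : ℝ) < 0 by norm_num) 0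
  have t0 := h.far t ht
  rw [T, norm_mul, norm_neg]
  refine (mul_le_mul h.nm ((norm_integral_le_of_norm_le (i.mul_const (1 / ‖t‖))
    ((ae_restrict_mem measurableSet_Ioi).mono fun s hs => ?_))) (norm_nonneg _) (by norm_num)).trans ?_
  · have s0 : 0 ≤ s := le_of_lt hs
    have m := h.inv t ht s s0
    have u := h.far _ m
    have a : ‖t‖ ≤ ‖t + s * d‖ * Real.exp (s / 40) := by
      have := norm_sub_le (t + s * d) (s * d)
      rw [add_sub_cancel_right, norm_mul, norm_real, Real.norm_of_nonneg s0] at this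
      nlinarith [h.nm, Real.add_one_le_exp (s / 40)]
    rw [norm_mul, h.nexp, show -(39 / 40) * s = -s + s / 40 by ring, Real.exp_add, mul_assoc]
    gcongr
    refine (hB _ m).trans ?_
    rw [mul_one_div, div_le_div_iff₀ (by linarith) (by linarith)]; linarith
  · rw [integral_mul_const, integral_exp_mul_Ioi (by norm_num)]
    have : 0 < 1 / ‖t‖ := by positivity
    rw [show 2 / ‖t‖ = 2 * (1 / ‖t‖) by ring]; norm_num; rw [one_div] at this; nlinarith

theorem T_sub {g' : ℂ → ℂ} {B' : ℝ} (hg : ContinuousOn g Ω) (hB : ∀ t ∈ Ω, ‖g t‖ ≤ B) (hg' : ContinuousOn g' Ω)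
    (hB' : ∀ t ∈ Ω, ‖g' t‖ ≤ B') (ht : t ∈ Ω) : T d g t - T d g' t = T d (fun t => g t - g' t) t := by
  simp only [T, mul_sub (exp _)]
  rw [integral_sub (h.int hg hB ht) (h.int hg' hB' ht), mul_sub]

theorem T_dif (hg : DifferentiableOn ℂ g Ω) (hB : ∀ t ∈ Ω, ‖g t‖ ≤ B) : DifferentiableOn ℂ (T d g) Ω := by
  refine (N142.G.hol_int (f := fun t (s : ℝ) => exp (s * d) * g (t + s * d)) h.op
    (fun t ht => (h.int hg.continuousOn hB ht).aestronglyMeasurable)
    ((ae_restrict_mem measurableSet_Ioi).mono fun s hs => ?_) fun t _ => ⟨1, one_pos, _, ie.mul_const B,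
      (ae_restrict_mem measurableSet_Ioi).mono fun s hs w hw _ => ?_⟩).const_mul _
  · exact (hg.comp (by fun_prop) fun t ht => h.inv t ht s (le_of_lt hs)).const_mul _
  · rw [norm_mul, h.nexp]; gcongr; exact hB _ (h.inv w hw s (le_of_lt hs))

theorem T_der (hg : DifferentiableOn ℂ g Ω) (hB : ∀ t ∈ Ω, ‖g t‖ ≤ B) (ht : t ∈ Ω) :
    HasDerivAt (T d g) (-T d g t + g t) t := by
  have d0 : d ≠ 0 := fun e => by simpa [e] using h.re
  have a := ((h.T_dif hg hB).differentiableAt (h.op.mem_nhds ht)).hasDerivAt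
  have i := h.int hg.continuousOn hB ht
  have c := h.cont hg.continuousOn ht
  have a1 : HasDerivAt (fun u : ℝ => T d g (t + u * d)) (deriv (T d g) t * d) 0 := by
    have b : HasDerivAt (fun u : ℂ => t + u * d) d ((0 : ℝ) : ℂ) := by
      simpa using ((hasDerivAt_id ((0 : ℝ) : ℂ)).mul_const d).const_add t
    exact (HasDerivAt.comp_of_eq _ a b (by simp)).comp_ofReal
  have a2 : HasDerivWithinAt (fun u : ℝ => ∫ s in (0 : ℝ)..u, exp (s * d) * g (t + s * d))
      (exp ((0 : ℝ) * d) * g (t + (0 : ℝ) * d)) (Ici 0) 0 :=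
    intervalIntegral.integral_hasDerivWithinAt_right (t := Ioi 0) (by simp)
      ⟨Ioi 0, self_mem_nhdsWithin, i.aestronglyMeasurable⟩ ((c 0 self_mem_Ici).mono Ioi_subset_Ici_self)
  have a3 : HasDerivAt (fun u : ℝ => exp (-(u * d))) (exp (-((0 : ℝ) * d)) * -d) 0 := by
    have b : HasDerivAt (fun u : ℂ => -(u * d)) (-d) ((0 : ℝ) : ℂ) := by
      simpa using ((hasDerivAt_id ((0 : ℝ) : ℂ)).mul_const d).fun_neg
    exact b.cexp.comp_ofReal
  have a4 := (a3.hasDerivWithinAt.fun_mul ((a2.const_mul d).const_add (T d g t))).congr_of_mem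
    (f₁ := fun u : ℝ => T d g (t + u * d)) (fun u (hu : 0 ≤ u) => by
      have e1 := intervalIntegral.integral_interval_add_Ioi' (a := 0) (b := u)
        ((c.mono (by rw [uIcc_of_le hu]; exact Icc_subset_Ici_self)).intervalIntegrable) (i.mono_set (Ioi_subset_Ioi hu))
      have e2 := (measurePreserving_add_right volume u).setIntegral_preimage_emb (measurableEmbedding_addRight u)
        (fun s : ℝ => exp (s * d) * g (t + s * d)) (Ioi u)
      rw [preimage_add_const_Ioi, sub_self] at e2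
      rw [T, T, ← e1, ← e2, show ∀ x y : ℂ, -d * (x + y) + d * x = -d * y from fun x y => by ring, mul_left_comm,
        ← integral_const_mul (exp _)]
      congr 2; funext s; push_cast
      rw [← mul_assoc, ← exp_add]; congr 2 <;> ring) self_mem_Ici
  have e := (uniqueDiffWithinAt_Ici (0 : ℝ)).eq_deriv _ a1.hasDerivWithinAt a4
  have e' : deriv (T d g) t = -T d g t + g t := by
    apply mul_right_cancel₀ d0
    rw [e]; simp; ring
  exact e' ▸ a

/-- representation of bounded solutions -/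
theorem rep {y : ℂ → ℂ} (hg : ContinuousOn g Ω) (hB : ∀ t ∈ Ω, ‖g t‖ ≤ B)
    (hy : ∀ t ∈ Ω, HasDerivAt y (-y t + g t) t ∧ ‖y t‖ ≤ 1) (ht : t ∈ Ω) : y t = T d g t := by
  have a : ∀ s ∈ Ici (0 : ℝ), HasDerivAt (fun s : ℝ => exp (s * d) * y (t + s * d))
      (d * (exp (s * d) * g (t + s * d))) s := fun s hs => by
    have b : HasDerivAt (fun u : ℂ => u * d) d s := by simpa using (hasDerivAt_id (s : ℂ)).mul_const d
    have c : HasDerivAt (fun u : ℂ => y (t + u * d)) ((-y (t + s * d) + g (t + s * d)) * d) s :=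
      (hy _ (h.inv t ht s hs)).1.comp (s : ℂ) (h := fun u => t + u * d) (b.const_add t)
    convert (b.cexp.fun_mul c).comp_ofReal using 1
    ring
  have b : Tendsto (fun s : ℝ => exp (s * d) * y (t + s * d)) atTop (𝓝 0) :=
    squeeze_zero_norm' ((eventually_ge_atTop 0).mono fun s hs => by
      rw [norm_mul, h.nexp]; exact mul_le_of_le_one_right (Real.exp_pos _).le (hy _ (h.inv t ht s hs)).2)
      Real.tendsto_exp_neg_atTop_nhds_zero
  have := integral_Ioi_of_hasDerivAt_of_tendsto' a ((h.int hg hB ht).const_mul d) b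
  rw [integral_const_mul] at this
  rw [T, neg_mul, this]; simp

theorem F_dif {y : ℂ → ℂ} (hy : DifferentiableOn ℂ y Ω) (hb : ∀ t ∈ Ω, ‖y t‖ ≤ 2 / ‖t‖) :
    DifferentiableOn ℂ (fun t => F t (y t)) Ω ∧ ∀ t ∈ Ω, ‖F t (y t)‖ ≤ 1 := by
  refine ⟨((hy.pow 2).div (hy.const_add 1) fun t ht => ne1 (sm_le (h.far t ht) (hb t ht))).add
    (((hy.pow 2).const_sub 1).div (by fun_prop) fun t ht => mul_ne_zero two_ne_zero
      (norm_pos_iff.1 (by linarith [h.far t ht]))), fun t ht => (F_le (h.far t ht) (hb t ht)).trans ?_⟩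
  rw [div_le_one (by linarith [h.far t ht])]; linarith [h.far t ht]

theorem ctr {y z : ℂ → ℂ} (hy : DifferentiableOn ℂ y Ω) (hb : ∀ t ∈ Ω, ‖y t‖ ≤ 2 / ‖t‖) (hz : DifferentiableOn ℂ z Ω)
    (hc : ∀ t ∈ Ω, ‖z t‖ ≤ 2 / ‖t‖) (hB : ∀ t ∈ Ω, ‖y t - z t‖ ≤ B) (ht : t ∈ Ω) :
    ‖T d (fun t => F t (y t)) t - T d (fun t => F t (z t)) t‖ ≤ B / 2 := by
  rw [h.T_sub (h.F_dif hy hb).1.continuousOn (h.F_dif hy hb).2 (h.F_dif hz hc).1.continuousOn (h.F_dif hz hc).2 ht]
  have B0 := (norm_nonneg _).trans (hB t ht)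
  refine (h.T_le (B := 1 / 10 * B) (fun u hu => (F_lip (h.far u hu) (sm_le (h.far u hu) (hb u hu))
    (sm_le (h.far u hu) (hc u hu))).trans (by linarith [hB u hu])) ht).trans (by linarith)

end Dm

/-- a small solution on `Ω` -/
def Sol (Ω : Set ℂ) (k : ℂ → ℂ) : Prop := ∀ t ∈ Ω, HasDerivAt k (Φ t (k t)) t ∧ ‖k t‖ ≤ 2 / ‖t‖

theorem Sol.dif {k : ℂ → ℂ} (h : Sol Ω k) : DifferentiableOn ℂ k Ω :=
  fun t ht => (h t ht).1.differentiableAt.differentiableWithinAt

theorem Dm.ex (h : Dm d Ω) : ∃ k, Sol Ω k := by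
  let y : ℕ → ℂ → ℂ := fun n => Nat.rec (fun _ => 0) (fun _ z => T d fun t => F t (z t)) n
  have ys : ∀ n, y (n + 1) = T d fun t => F t (y n t) := fun _ => rfl
  have a : ∀ n, DifferentiableOn ℂ (y n) Ω ∧ ∀ t ∈ Ω, ‖y n t‖ ≤ 2 / ‖t‖ := fun n => by
    induction n with
    | zero => exact ⟨differentiableOn_const 0, fun t _ => by simp [y]; positivity⟩
    | succ n ih => exact ⟨h.T_dif (h.F_dif ih.1 ih.2).1 (h.F_dif ih.1 ih.2).2,
        fun t ht => h.T_wt (fun u hu => F_le (h.far u hu) (ih.2 u hu)) ht⟩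
  have b : ∀ n, ∀ t ∈ Ω, ‖y n t - y (n + 1) t‖ ≤ 1 * (1 / 2) ^ n := fun n => by
    induction n with
    | zero => exact fun t ht => (norm_sub_le _ _).trans (by
        linarith [sm_le (h.far t ht) ((a 0).2 t ht), sm_le (h.far t ht) ((a (0 + 1)).2 t ht)])
    | succ n ih => exact fun t ht => (h.ctr (a n).1 (a n).2 (a (n + 1)).1 (a (n + 1)).2 ih ht).trans_eq (by ring)
  have c : ∀ t ∈ Ω, Tendsto (fun n => y n t) atTop (𝓝 (limUnder atTop fun n => y n t)) := fun t ht =>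
    (cauchySeq_of_le_geometric (1 / 2) 1 (by norm_num) fun n => by rw [dist_eq_norm]; exact b n t ht).tendsto_limUnder
  set k : ℂ → ℂ := fun t => limUnder atTop fun n => y n t
  have e : ∀ n, ∀ t ∈ Ω, ‖y n t - k t‖ ≤ 2 * (1 / 2) ^ n := fun n t ht => by
    have := dist_le_of_le_geometric_of_tendsto (1 / 2) 1 (by norm_num)
      (fun n => by rw [dist_eq_norm]; exact b n t ht) (c t ht) n
    rw [dist_eq_norm] at this; exact this.trans_eq (by ring)
  have z : Tendsto (fun n : ℕ => 2 * (1 / 2 : ℝ) ^ n) atTop (𝓝 0) := by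
    have := (tendsto_pow_atTop_nhds_zero_of_lt_one (r := (1 / 2 : ℝ)) (by norm_num) (by norm_num)).const_mul 2
    rwa [mul_zero] at this
  have u : TendstoUniformlyOn y k atTop Ω := Metric.tendstoUniformlyOn_iff.2 fun ε hε =>
    (z.eventually (gt_mem_nhds hε)).mono fun n hn t ht => by
      rw [dist_comm, dist_eq_norm]; exact (e n t ht).trans_lt hn
  have kd := u.tendstoLocallyUniformlyOn.differentiableOn (.of_forall fun n => (a n).1) h.op
  have kb : ∀ t ∈ Ω, ‖k t‖ ≤ 2 / ‖t‖ := fun t ht => le_of_tendsto' (c t ht).norm fun n => (a n).2 t ht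
  have fx : ∀ t ∈ Ω, k t = T d (fun t => F t (k t)) t := fun t ht => by
    refine tendsto_nhds_unique ((c t ht).comp (tendsto_add_atTop_nat 1)) (tendsto_iff_norm_sub_tendsto_zero.2
      (squeeze_zero (fun _ => norm_nonneg _) (fun n => ?_) z))
    exact (h.ctr (a n).1 (a n).2 kd kb (e n) ht).trans (half_le_self (by positivity))
  refine ⟨k, fun t ht => ⟨?_, kb t ht⟩⟩
  rw [Φ_eq (sm_le (h.far t ht) (kb t ht))]
  have := h.T_der (h.F_dif kd kb).1 (h.F_dif kd kb).2 ht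
  rw [← fx t ht] at this
  exact this.congr_of_eventuallyEq (eventually_of_mem (h.op.mem_nhds ht) fx)

theorem Dm.uq (h : Dm d Ω) {k l : ℂ → ℂ} (hk : Sol Ω k) (hl : Sol Ω l) (ht : t ∈ Ω) : k t = l t := by
  have r : ∀ {k : ℂ → ℂ}, Sol Ω k → ∀ t ∈ Ω, k t = T d (fun t => F t (k t)) t := fun {k} hk t ht =>
    h.rep (h.F_dif hk.dif fun t ht => (hk t ht).2).1.continuousOn (h.F_dif hk.dif fun t ht => (hk t ht).2).2
      (fun u hu => by
        have := sm_le (h.far u hu) (hk u hu).2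
        exact ⟨Φ_eq this ▸ (hk u hu).1, by linarith⟩) ht
  have b : ∀ n : ℕ, ∀ t ∈ Ω, ‖k t - l t‖ ≤ (1 / 2) ^ n := fun n => by
    induction n with
    | zero => exact fun t ht => (norm_sub_le _ _).trans (by
        linarith [sm_le (h.far t ht) (hk t ht).2, sm_le (h.far t ht) (hl t ht).2])
    | succ n ih =>
      intro t ht
      rw [r hk t ht, r hl t ht]
      exact (h.ctr hk.dif (fun t ht => (hk t ht).2) hl.dif (fun t ht => (hl t ht).2) ih ht).trans_eq (by ring)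
  exact sub_eq_zero.1 (norm_le_zero_iff.1 (ge_of_tendsto'
    (tendsto_pow_atTop_nhds_zero_of_lt_one (r := 1 / 2) (by norm_num) (by norm_num)) fun n => b n t ht))

end Crest.Agent.N250.Bowl
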