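import Crest.Agent.N250.Bowl.Ex

/-!
# Row 250, B1: the Stokes jump of the bowl does not vanish (helper70)
-/

set_option autoImplicit false

noncomputable section

namespace Crest.Agent.N250.Bowl

open Complex Set Filter Topology
open scoped ComplexConjugate

/-- the domain of the upper solution -/
def Om : Set ℂ := {t | 200 < t.re + t.im ∨ 200 < t.im ∨ t.re < -200}

theorem far_of {t : ℂ} (h : 200 < t.re + t.im ∨ 200 < t.im ∨ t.re < -200) : 100 ≤ ‖t‖ := by
  have a := abs_le.1 (abs_re_le_norm t)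
  have b := abs_le.1 (abs_im_le_norm t)
  rcases h with h | h | h <;> linarith [a.1, a.2, b.2]

theorem dm_Om : Dm (-1 + I) Om := by
  refine ⟨by simp, ?_, ?_, fun t => far_of, fun t ht s hs => ?_⟩
  · rw [← sq_le_sq₀ (norm_nonneg _) (by norm_num), Complex.sq_norm, normSq_apply]; norm_num
  · exact (isOpen_lt continuous_const (continuous_re.add continuous_im)).union
      ((isOpen_lt continuous_const continuous_im).union (isOpen_lt continuous_re continuous_const))
  · rcases ht with h | h | h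
    · left; simp; linarith
    · right; left; simp; linarith
    · right; right; simp; linarith

theorem dm_L : Dm (-1) {t | t.re < -200} :=
  ⟨by simp, by norm_num, isOpen_lt (by fun_prop) (by fun_prop), fun t h => far_of (.inr (.inr h)),
    fun t (h : t.re < _) s hs => by simp; linarith⟩

variable {k : ℂ → ℂ} {Ω : Set ℂ}

theorem Sol.mono {Ω' : Set ℂ} (h : Sol Ω k) (e : Ω' ⊆ Ω) : Sol Ω' k := fun t ht => h t (e ht)

theorem Sol.cj (h : Sol Ω k) : Sol {t | conj t ∈ Ω} fun t => conj (k (conj t)) := fun t ht => by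
  refine ⟨?_, by simpa using (h _ ht).2⟩
  have := (h _ ht).1.conj_conj
  simpa [Φ, Function.comp_def, map_ofNat] using this

/-- a small solution near infinity cannot exist -/
theorem no_sol (h : Sol {t | 1000 < ‖t‖} k) : False := by
  set H : ℂ → ℂ := fun τ => if τ = 0 then 1 else 1 + k (1 / (2 * τ)) with hH
  have ev : ∀ᶠ τ in 𝓝[≠] (0 : ℂ), τ ≠ 0 ∧ 1000 < ‖1 / (2 * τ)‖ ∧ ‖k (1 / (2 * τ))‖ ≤ 4 * ‖τ‖ ∧
      HasDerivAt H (Φ (1 / (2 * τ)) (k (1 / (2 * τ))) * (-1 / (2 * τ ^ 2))) τ := by
    filter_upwards [self_mem_nhdsWithin, nhdsWithin_le_nhds (Metric.ball_mem_nhds (0 : ℂ)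
      (show (0 : ℝ) < 1 / 2000 by norm_num))] with τ (t0 : τ ≠ 0) hτ
    have n0 := norm_pos_iff.2 t0
    rw [mem_ball_zero_iff] at hτ
    have e : ‖1 / (2 * τ)‖ = 1 / (2 * ‖τ‖) := by simp
    have m : 1000 < ‖1 / (2 * τ)‖ := by rw [e, lt_div_iff₀ (by positivity)]; linarith
    refine ⟨t0, m, (h _ m).2.trans_eq (by rw [e]; field_simp; norm_num), ?_⟩
    have d : HasDerivAt (fun τ : ℂ => 1 / (2 * τ)) (-1 / (2 * τ ^ 2)) τ := by
      refine ((hasDerivAt_const τ 1).fun_div ((hasDerivAt_id' τ).const_mul 2) (mul_ne_zero two_ne_zero t0)).congr_deriv ?_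
      field_simp; ring
    refine (((h _ m).1.comp τ d).const_add 1).congr_of_eventuallyEq ?_
    filter_upwards [isOpen_ne.mem_nhds t0] with u hu
    simp [hH, hu]
  have c : ContinuousAt H 0 := by
    rw [← continuousWithinAt_compl_self, ContinuousWithinAt, tendsto_iff_norm_sub_tendsto_zero]
    refine squeeze_zero' (.of_forall fun _ => norm_nonneg _) (ev.mono fun τ a => ?_)
      (g := fun τ => 4 * ‖τ‖) (tendsto_nhdsWithin_of_tendsto_nhds ?_)
    · simpa [hH, a.1] using a.2.2.1
    · exact Continuous.tendsto' (by fun_prop) _ _ (by simp)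
  refine no_h (analyticAt_of_differentiable_on_punctured_nhds_of_continuousAt
    (ev.mono fun τ a => a.2.2.2.differentiableAt) c) ?_
  rw [← nhdsNE_sup_pure, eventually_sup]
  refine ⟨ev.mono fun τ a => ?_, by simp [hH]⟩
  have := ne1 (sm_le (by linarith [a.2.1]) (h _ a.2.1).2)
  have t0 := a.1
  rw [a.2.2.2.deriv]
  simp only [hH, if_neg t0, Φ]
  field_simp
  ring

/-- the upper solution is not real on the real axis -/
theorem not_real (h : Sol Om k) (hr : ∀ x : ℝ, 300 ≤ x → (k x).im = 0) : False := by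
  have hc := h.cj
  set R : Set ℂ := {t | 200 < t.re + t.im} ∩ {t | 200 < t.re - t.im} with hR
  have oR : IsOpen R := (isOpen_lt (by fun_prop) (by fun_prop)).inter (isOpen_lt (by fun_prop) (by fun_prop))
  have cR : Convex ℝ R := (convex_halfSpace_gt (reLm + imLm).isLinear 200).inter
    (convex_halfSpace_gt (reLm - imLm).isLinear 200)
  have eR : EqOn k (fun t => conj (k (conj t))) R := by
    refine ((h.mono fun t ht => .inl ht.1).dif.analyticOnNhd oR).eqOn_of_preconnected_of_frequently_eq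
      ((hc.mono fun t ht => .inl (by simpa [sub_eq_add_neg] using ht.2)).dif.analyticOnNhd oR) cR.isPreconnected
      (z₀ := ((400 : ℝ) : ℂ)) (by simp [hR]; norm_num) ?_
    have t : Tendsto (fun x : ℝ => (x : ℂ)) (𝓝[≠] 400) (𝓝[≠] ((400 : ℝ) : ℂ)) :=
      tendsto_nhdsWithin_of_tendsto_nhds_of_eventually_within _
        (continuous_ofReal.continuousAt.tendsto.mono_left nhdsWithin_le_nhds)
        (eventually_mem_nhdsWithin.mono fun x hx => ofReal_injective.ne hx)
    refine t.frequently (Eventually.frequently ?_)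
    filter_upwards [nhdsWithin_le_nhds (Ici_mem_nhds (show (300 : ℝ) < 400 by norm_num))] with x hx
    rw [conj_ofReal]; exact (conj_eq_iff_im.2 (hr x hx)).symm
  have e : ∀ t ∈ Om, conj t ∈ Om → k t = conj (k (conj t)) := fun t h1 h2 => by
    by_cases l : t.re < -200
    · exact dm_L.uq (h.mono fun t ht => .inr (.inr ht)) (hc.mono fun t ht => .inr (.inr (by simpa using ht))) l
    · refine eR ?_
      simp only [Om, mem_ofPred, conj_re, conj_im] at h1 h2
      rcases h1 with a | a | a <;> rcases h2 with b | b | b <;>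
        first | exact absurd ‹_› l | exact ⟨by simp only [mem_ofPred]; linarith, by simp only [mem_ofPred]; linarith⟩
  classical
  refine no_sol (k := fun t => if t ∈ Om then k t else conj (k (conj t))) fun t (ht : 1000 < ‖t‖) => ?_
  by_cases m : t ∈ Om
  · simp only [if_pos m]
    exact ⟨(h t m).1.congr_of_eventuallyEq (eventually_of_mem (dm_Om.op.mem_nhds m) fun u hu => if_pos hu), (h t m).2⟩
  · have m' : conj t ∈ Om := by
      by_contra m'
      simp only [Om, mem_ofPred, conj_re, conj_im, not_or, not_lt] at m m'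
      have := norm_le_abs_re_add_abs_im t
      have a : |t.re| ≤ 200 := abs_le.2 ⟨by linarith [m.2.2], by linarith [m.1, m'.1]⟩
      have b : |t.im| ≤ 200 := abs_le.2 ⟨by linarith [m'.2.1], m.2.1⟩
      linarith
    simp only [if_neg m]
    refine ⟨(hc t m').1.congr_of_eventuallyEq (eventually_of_mem
      ((dm_Om.op.preimage continuous_conj).mem_nhds m') fun u hu => ?_), (hc t m').2⟩
    by_cases v : u ∈ Om
    · simp only [if_pos v]; exact e u v hu
    · simp only [if_neg v]

theorem re_Om {x : ℝ} (hx : 300 ≤ x) : (x : ℂ) ∈ Om := .inl (by simp; linarith)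

/-- the imaginary part solves a real linear equation -/
theorem im_der (h : Sol Om k) {x : ℝ} (hx : 300 ≤ x) : ∃ G : ℝ, |G + 1| ≤ 5 / x ∧
    HasDerivAt (fun x : ℝ => (k x).im) (G * (k x).im) x := by
  obtain ⟨d, b⟩ := h _ (re_Om hx)
  rw [norm_real, Real.norm_of_nonneg (by linarith)] at b
  have s : ‖k x‖ ≤ 1 / 150 := b.trans (by rw [div_le_div_iff₀ (by linarith) (by norm_num)]; linarith)
  have n1 : 149 / 150 ≤ ‖1 + k x‖ := by
    have := norm_sub_norm_le (1 : ℂ) (-k x)
    rw [norm_one, norm_neg, sub_neg_eq_add] at this; linarith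
  have n2 : |‖1 + k x‖ - 1| ≤ ‖k x‖ := by simpa using abs_norm_sub_norm_le (1 + k x) 1
  have q : normSq (1 + k x) = ‖1 + k x‖ ^ 2 := (Complex.sq_norm _).symm
  have x0 : 0 < x := by linarith
  refine ⟨-1 / normSq (1 + k x) - (k x).re / x, ?_, ?_⟩
  · have a : |-1 / normSq (1 + k x) + 1| ≤ 21 / 10 * ‖k x‖ := by
      rw [q, show -1 / ‖1 + k x‖ ^ 2 + 1 = (‖1 + k x‖ - 1) * ((‖1 + k x‖ + 1) / ‖1 + k x‖ ^ 2) by
        field_simp; ring, abs_mul, mul_comm]
      refine mul_le_mul ?_ n2 (abs_nonneg _) (by norm_num)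
      rw [abs_of_nonneg (by positivity), div_le_iff₀ (by positivity)]; nlinarith
    have c : |(k x).re / x| ≤ 1 / 150 / x := by
      rw [abs_div, abs_of_pos x0]; gcongr; exact (abs_re_le_norm _).trans s
    have := abs_sub (-1 / normSq (1 + k x) + 1) ((k x).re / x)
    rw [show -1 / normSq (1 + k x) - (k x).re / x + 1 = -1 / normSq (1 + k x) + 1 - (k x).re / x by ring]
    have e1 : 2 / x = 2 * (1 / x) := by ring
    have e2 : 5 / x = 5 * (1 / x) := by ring
    have e3 : 1 / 150 / x = 1 / 150 * (1 / x) := by ring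
    have : 0 < 1 / x := by positivity
    linarith
  · have q0 : normSq (1 + k x) ≠ 0 := by rw [q]; positivity
    refine (imCLM.hasFDerivAt.comp_hasDerivAt x d.comp_ofReal :).congr_deriv ?_
    rw [imCLM_apply, Φ, show (2 * x : ℂ) = ((2 * x : ℝ) : ℂ) by push_cast; rfl, add_im, div_ofReal_im, div_im]
    simp [sq]; field_simp; ring

/-- **the Stokes jump of the bowl** -/
theorem bowl : ∃ (k : ℂ → ℂ) (σ c C : ℝ), Sol Om k ∧ (σ = 1 ∨ σ = -1) ∧ 0 < c ∧ ∀ x : ℝ, 300 ≤ x →
    c * (Real.exp (-x) / x ^ 5) ≤ σ * (k x).im ∧ σ * (k x).im ≤ C * (Real.exp (-x) * x ^ 5) := by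
  obtain ⟨k, h⟩ := dm_Om.ex
  set β : ℝ → ℝ := fun x => (k x).im with hβ
  have cβ : ContinuousOn β (Ici 300) := fun x hx => (im_der h hx).choose_spec.2.continuousAt.continuousWithinAt
  have key : ∀ (n : ℝ) (x : ℝ), 300 ≤ x → ∃ G : ℝ, |G + 1| ≤ 5 / x ∧
      HasDerivAt (fun x => (β x * Real.exp (x + n * Real.log x)) ^ 2)
        (2 * (β x * Real.exp (x + n * Real.log x)) ^ 2 * (G + 1 + n / x)) x := fun n x hx => by
    obtain ⟨G, a, b⟩ := im_der h hx
    refine ⟨G, a, ?_⟩
    refine ((b.fun_mul ((hasDerivAt_id' x).fun_add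
      ((Real.hasDerivAt_log (by linarith)).const_mul n)).exp).fun_pow 2).congr_deriv ?_
    simp only [hβ]; ring
  have up : MonotoneOn (fun x => (β x * Real.exp (x + 5 * Real.log x)) ^ 2) (Ici 300) :=
    monotoneOn_of_deriv_nonneg (convex_Ici _)
      (fun x hx => (key 5 x hx).choose_spec.2.continuousAt.continuousWithinAt)
      (fun x hx => (key 5 x (interior_subset hx)).choose_spec.2.differentiableAt.differentiableWithinAt) fun x hx => by
        obtain ⟨G, a, b⟩ := key 5 x (interior_subset hx)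
        rw [b.deriv]; exact mul_nonneg (by positivity) (by linarith [(abs_le.1 a).1])
  have dn : AntitoneOn (fun x => (β x * Real.exp (x + -5 * Real.log x)) ^ 2) (Ici 300) :=
    antitoneOn_of_deriv_nonpos (convex_Ici _)
      (fun x hx => (key (-5) x hx).choose_spec.2.continuousAt.continuousWithinAt)
      (fun x hx => (key (-5) x (interior_subset hx)).choose_spec.2.differentiableAt.differentiableWithinAt)
      fun x hx => by
        obtain ⟨G, a, b⟩ := key (-5) x (interior_subset hx)
        rw [b.deriv]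
        exact mul_nonpos_of_nonneg_of_nonpos (by positivity) (by rw [neg_div]; linarith [(abs_le.1 a).2])
  have b0 : β 300 ≠ 0 := fun e => not_real h fun x hx => by
    have := dn self_mem_Ici hx hx
    simp only [e, zero_mul, ne_eq, OfNat.ofNat_ne_zero, not_false_eq_true, zero_pow] at this
    exact (mul_eq_zero.1 (pow_eq_zero_iff two_ne_zero |>.1 (le_antisymm this (sq_nonneg _)))).resolve_right
      (Real.exp_pos _).ne'
  have ex : ∀ (n : ℕ) (x : ℝ), 300 ≤ x → Real.exp (n * Real.log x) = x ^ n := fun n x hx => by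
    rw [Real.exp_nat_mul, Real.exp_log (by linarith)]
  have lo : ∀ x, 300 ≤ x → |β 300 * Real.exp (300 + 5 * Real.log 300)| * (Real.exp (-x) / x ^ 5) ≤ |β x| :=
    fun x hx => by
      have := sq_le_sq.1 (up self_mem_Ici hx hx)
      rw [abs_mul (β x), abs_of_pos (Real.exp_pos (x + _)), Real.exp_add x] at this
      have e := ex 5 x hx
      push_cast at e
      rw [e] at this
      have x0 : 0 < x := by linarith
      rw [Real.exp_neg, ← mul_div_assoc, div_le_iff₀ (by positivity), ← div_eq_mul_inv, div_le_iff₀ (Real.exp_pos _)]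
      linarith
  have hi : ∀ x, 300 ≤ x → |β x| ≤ |β 300 * Real.exp (300 + -5 * Real.log 300)| * (Real.exp (-x) * x ^ 5) :=
    fun x hx => by
      have := sq_le_sq.1 (dn self_mem_Ici hx hx)
      rw [abs_mul (β x), abs_of_pos (Real.exp_pos (x + _)), ← le_div_iff₀ (Real.exp_pos _), div_eq_mul_inv,
        ← Real.exp_neg, neg_add, Real.exp_add (-x), neg_mul 5 (Real.log x), neg_neg] at this
      have e := ex 5 x hx
      push_cast at e
      rwa [e] at this
  have c0 : 0 < |β 300 * Real.exp (300 + 5 * Real.log 300)| := abs_pos.2 (mul_ne_zero b0 (Real.exp_pos _).ne')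
  have nz : ∀ x ∈ Ici (300 : ℝ), β x ≠ 0 := fun x hx => abs_pos.1 (lt_of_lt_of_le (by
    have : (0 : ℝ) < x := lt_of_lt_of_le (by norm_num) hx
    positivity) (lo x hx))
  rcases isPreconnected_Ici.mapsTo_Ioi_or_Iio cβ nz with p | p
  · exact ⟨k, 1, _, _, h, .inl rfl, c0, fun x hx => by
      rw [one_mul, ← abs_of_pos (show 0 < (k x).im from p hx)]; exact ⟨lo x hx, hi x hx⟩⟩
  · exact ⟨k, -1, _, _, h, .inr rfl, c0, fun x hx => by
      rw [neg_one_mul, ← abs_of_neg (show (k x).im < 0 from p hx)]; exact ⟨lo x hx, hi x hx⟩⟩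

end Crest.Agent.N250.Bowl
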